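import Mathlib

/-!
A zero estimate for the multiplicative group.
-/

namespace Vale.Agent.P024.W

open MvPolynomial

section coprime

variable {R : Type*} [CommRing R] [IsDomain R] [UniqueFactorizationMonoid R]

/-- If the resultant vanishes, then there is a common irreducible factor of positive degree. -/
theorem exists_common (f g : Polynomial R) (hf : f ≠ 0) (hg : g ≠ 0)
    (h : Polynomial.resultant f g = 0) :
    ∃ r : Polynomial R, Irreducible r ∧ 0 < r.natDegree ∧ r ∣ f ∧ r ∣ g := by
  classical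
  let L := FractionRing R
  let _ : NormalizedGCDMonoid R := Classical.choice (inferInstance : Nonempty (NormalizedGCDMonoid R))
  have hinj : Function.Injective (algebraMap R L) := IsFractionRing.injective R L
  set φ := algebraMap R L with hφ
  have hfL : f.map φ ≠ 0 := (Polynomial.map_ne_zero_iff hinj).2 hf
  have hgL : g.map φ ≠ 0 := (Polynomial.map_ne_zero_iff hinj).2 hg
  have h1 : Polynomial.resultant (f.map φ) (g.map φ) = 0 := by
    rw [Polynomial.natDegree_map_eq_of_injective hinj, Polynomial.natDegree_map_eq_of_injective hinj,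
      Polynomial.resultant_map_map, h, map_zero]
  rw [Polynomial.resultant_eq_zero_iff] at h1
  -- a common irreducible factor over the field of fractions
  obtain ⟨u, hu, huf, hug⟩ : ∃ u : Polynomial L, Irreducible u ∧ u ∣ f.map φ ∧ u ∣ g.map φ := by
    have h2 : ¬ IsUnit (EuclideanDomain.gcd (f.map φ) (g.map φ)) := fun hu =>
      h1.2 ((EuclideanDomain.gcd_isUnit_iff).1 hu)
    have h3 : EuclideanDomain.gcd (f.map φ) (g.map φ) ≠ 0 := by
      intro h0
      exact hfL (EuclideanDomain.gcd_eq_zero_iff.1 h0).1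
    obtain ⟨u, hu, hu'⟩ := WfDvdMonoid.exists_irreducible_factor h2 h3
    exact ⟨u, hu, hu'.trans (EuclideanDomain.gcd_dvd_left _ _),
      hu'.trans (EuclideanDomain.gcd_dvd_right _ _)⟩
  have key : ∀ F : Polynomial R, F ≠ 0 → u ∣ F.map φ → ∃ r : Polynomial R, Irreducible r ∧
      0 < r.natDegree ∧ r ∣ F ∧ Associated (r.map φ) u := by
    intro F hF huF
    obtain ⟨a, ha⟩ := UniqueFactorizationMonoid.factors_prod hF
    have h2 : u ∣ ((UniqueFactorizationMonoid.factors F).prod * (a : Polynomial R)).map φ := by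
      rw [ha]; exact huF
    rw [Polynomial.map_mul] at h2
    have hup : Prime u := hu.prime
    rcases hup.dvd_or_dvd h2 with h3 | h3
    · have h4 : ((UniqueFactorizationMonoid.factors F).prod).map φ =
          ((UniqueFactorizationMonoid.factors F).map (Polynomial.mapRingHom φ)).prod := by
        rw [← map_multiset_prod]
        rfl
      rw [h4] at h3
      obtain ⟨q, hq, huq⟩ := Prime.exists_mem_multiset_dvd hup h3
      rw [Multiset.mem_map] at hq
      obtain ⟨r, hr, rfl⟩ := hq
      have hri := UniqueFactorizationMonoid.irreducible_of_factor r hr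
      have hrd : 0 < r.natDegree := by
        by_contra h0
        have h0' : r.natDegree = 0 := by omega
        rw [Polynomial.eq_C_of_natDegree_eq_zero h0'] at huq
        rw [Polynomial.coe_mapRingHom, Polynomial.map_C] at huq
        have hne : r.coeff 0 ≠ 0 := by
          intro h00
          apply hri.ne_zero
          rw [Polynomial.eq_C_of_natDegree_eq_zero h0', h00, Polynomial.C_0]
        have : IsUnit (Polynomial.C (φ (r.coeff 0))) :=
          Polynomial.isUnit_C.2 (IsUnit.mk0 _ ((map_ne_zero_iff φ hinj).2 hne))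
        exact hu.not_isUnit (isUnit_of_dvd_unit huq this)
      have hprim : r.IsPrimitive := hri.isPrimitive (by omega)
      have hirr : Irreducible (r.map φ) :=
        (hprim.irreducible_iff_irreducible_map_fraction_map (K := L)).1 hri
      refine ⟨r, hri, hrd, UniqueFactorizationMonoid.dvd_of_mem_factors hr, ?_⟩
      exact ((Irreducible.dvd_irreducible_iff_associated hu hirr).1 huq).symm
    · have : IsUnit ((a : Polynomial R).map φ) := a.isUnit.map (Polynomial.mapRingHom φ)
      exact absurd (isUnit_of_dvd_unit h3 this) hu.not_isUnit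
  obtain ⟨r, hr, hrd, hrf, hru⟩ := key f hf huf
  obtain ⟨r', hr', hrd', hrg, hru'⟩ := key g hg hug
  refine ⟨r, hr, hrd, hrf, dvd_trans ?_ hrg⟩
  have hp : r.IsPrimitive := hr.isPrimitive (by omega)
  have hp' : r'.IsPrimitive := hr'.isPrimitive (by omega)
  exact hp.dvd_of_fraction_map_dvd_fraction_map (K := L) (hru.trans hru'.symm).dvd

end coprime

section twist

variable {K : Type*} [Field K] {d : ℕ}

/-- The translate of a polynomial. -/
noncomputable def tw (g : Fin d → Kˣ) : MvPolynomial (Fin d) K →ₐ[K] MvPolynomial (Fin d) K :=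
  aeval fun i => C (g i : K) * X i

theorem tw_mul (g h : Fin d → Kˣ) (P : MvPolynomial (Fin d) K) : tw (g * h) P = tw g (tw h P) := by
  have : (tw (g * h) : MvPolynomial (Fin d) K →ₐ[K] MvPolynomial (Fin d) K) =
      (tw g).comp (tw h) := by
    apply MvPolynomial.algHom_ext
    intro i
    simp only [tw, aeval_X, AlgHom.comp_apply, map_mul, Pi.mul_apply, Units.val_mul, algHom_C,
      algebraMap_eq]
    ring
  rw [this]
  rfl

theorem tw_one (P : MvPolynomial (Fin d) K) : tw (1 : Fin d → Kˣ) P = P := by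
  have : (tw (1 : Fin d → Kˣ) : MvPolynomial (Fin d) K →ₐ[K] MvPolynomial (Fin d) K) =
      AlgHom.id K _ := by
    apply MvPolynomial.algHom_ext
    intro i
    simp [tw]
  rw [this]
  rfl

theorem coeff_tw (g : Fin d → Kˣ) (P : MvPolynomial (Fin d) K) (k : Fin d →₀ ℕ) :
    coeff k (tw g P) = (k.prod fun i n => ((g i : Kˣ) : K) ^ n) * coeff k P := by
  classical
  induction P using MvPolynomial.induction_on' with
  | monomial u a =>
    have h1 : tw g (monomial u a) = monomial u ((u.prod fun i n => ((g i : Kˣ) : K) ^ n) * a) := by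
      rw [tw, aeval_monomial, algebraMap_eq]
      have h2 : (u.prod fun i n => (C ((g i : Kˣ) : K) * X i : MvPolynomial (Fin d) K) ^ n) =
          C (u.prod fun i n => ((g i : Kˣ) : K) ^ n) * u.prod fun i n => X i ^ n := by
        simp only [Finsupp.prod, mul_pow, Finset.prod_mul_distrib, map_prod, map_pow]
      rw [h2, monomial_eq, map_mul]
      ring
    rw [h1, coeff_monomial, coeff_monomial]
    split_ifs with h
    · subst h; rfl
    · simp
  | add p q hp hq => rw [map_add, coeff_add, coeff_add, hp, hq, mul_add]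

theorem eval_tw (g : Fin d → Kˣ) (y : Fin d → K) (P : MvPolynomial (Fin d) K) :
    eval y (tw g P) = eval (fun i => (g i : K) * y i) P := by
  have : (aeval y : MvPolynomial (Fin d) K →ₐ[K] K).comp (tw g) =
      aeval fun i => (g i : K) * y i := by
    apply MvPolynomial.algHom_ext
    intro i
    simp [tw]
  have h := DFunLike.congr_fun this P
  simpa [aeval_eq_eval] using h

theorem coeff_tw_ne_zero (g : Fin d → Kˣ) (P : MvPolynomial (Fin d) K) (k : Fin d →₀ ℕ) :
    coeff k (tw g P) ≠ 0 ↔ coeff k P ≠ 0 := by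
  rw [coeff_tw]
  have : (k.prod fun i n => ((g i : Kˣ) : K) ^ n) ≠ 0 :=
    Finset.prod_ne_zero_iff.2 fun i _ => pow_ne_zero _ (g i).ne_zero
  rw [mul_ne_zero_iff]
  exact and_iff_right this

theorem support_tw (g : Fin d → Kˣ) (P : MvPolynomial (Fin d) K) :
    (tw g P).support = P.support := by
  ext k
  rw [mem_support_iff, mem_support_iff, coeff_tw_ne_zero]

theorem degreeOf_tw (g : Fin d → Kˣ) (P : MvPolynomial (Fin d) K) (i : Fin d) :
    (tw g P).degreeOf i = P.degreeOf i := by
  rw [degreeOf_eq_sup, degreeOf_eq_sup, support_tw]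

theorem tw_ne_zero (g : Fin d → Kˣ) {P : MvPolynomial (Fin d) K} (hP : P ≠ 0) : tw g P ≠ 0 := by
  rw [Ne, ← support_eq_empty, support_tw, support_eq_empty]
  exact hP

theorem tw_inv_tw (g : Fin d → Kˣ) (P : MvPolynomial (Fin d) K) : tw g⁻¹ (tw g P) = P := by
  rw [← tw_mul, inv_mul_cancel, tw_one]

theorem tw_tw_inv (g : Fin d → Kˣ) (P : MvPolynomial (Fin d) K) : tw g (tw g⁻¹ P) = P := by
  rw [← tw_mul, mul_inv_cancel, tw_one]

/-- The translation as an automorphism. -/
noncomputable def twE (g : Fin d → Kˣ) : MvPolynomial (Fin d) K ≃ₐ[K] MvPolynomial (Fin d) K :=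
  AlgEquiv.ofAlgHom (tw g) (tw g⁻¹) (AlgHom.ext fun P => tw_tw_inv g P)
    (AlgHom.ext fun P => tw_inv_tw g P)

theorem twE_apply (g : Fin d → Kˣ) (P : MvPolynomial (Fin d) K) : twE g P = tw g P := rfl

end twist

section translate

variable {K : Type*} [Field K] {d : ℕ}

theorem degreeOf_le_of_dvd {P Q : MvPolynomial (Fin d) K} (hQ : Q ≠ 0) (h : P ∣ Q) (i : Fin d) :
    P.degreeOf i ≤ Q.degreeOf i := by
  obtain ⟨A, rfl⟩ := h
  have hP : P ≠ 0 := left_ne_zero_of_mul hQ
  have hA : A ≠ 0 := right_ne_zero_of_mul hQ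
  rw [degreeOf_mul_eq hP hA]
  exact Nat.le_add_right _ _

theorem exists_two_supp {r : MvPolynomial (Fin (d + 1)) K} (hr : 0 < r.degreeOf 0)
    (hX : ¬ X 0 ∣ r) : ∃ a b : Fin (d + 1) →₀ ℕ, a ≠ b ∧ coeff a r ≠ 0 ∧ coeff b r ≠ 0 := by
  classical
  have hr0 : r ≠ 0 := by
    rintro rfl
    simp at hr
  obtain ⟨a, ha, ha0⟩ : ∃ a ∈ r.support, 0 < a 0 := by
    by_contra hcon
    push Not at hcon
    have : r.degreeOf 0 ≤ 0 := by
      rw [degreeOf_le_iff]
      exact hcon
    omega
  by_contra hcon
  push Not at hcon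
  apply hX
  have h1 : r = monomial a (coeff a r) := by
    ext b
    rw [coeff_monomial]
    split_ifs with h
    · rw [h]
    · by_contra hb
      exact hb (hcon a b h (mem_support_iff.1 ha))
  rw [h1]
  refine ⟨monomial (a - Finsupp.single 0 1) (coeff a r), ?_⟩
  have h2 : Finsupp.single 0 1 + (a - Finsupp.single 0 1) = a := by
    ext i
    rw [Finsupp.add_apply, Finsupp.tsub_apply, Finsupp.single_apply]
    split_ifs with h
    · subst h; omega
    · omega
  rw [X, monomial_mul, one_mul, h2]

/-- A translate without common factor of positive degree. -/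
theorem exists_translate {l : ℕ} (y : (Fin l → ℕ) → Fin (d + 1) → Kˣ)
    (hind : ∀ m m' : Fin l → ℕ, m ≠ m' → ∀ a b : Fin (d + 1) → ℕ, a ≠ b →
      (∏ i, y m i ^ a i) * (∏ i, y m' i ^ b i) ≠ (∏ i, y m i ^ b i) * ∏ i, y m' i ^ a i)
    {P : MvPolynomial (Fin (d + 1)) K} (hP : P ≠ 0) (hX : ¬ X 0 ∣ P) {D : ℕ}
    (hD : P.degreeOf 0 ≤ D) (S : Finset (Fin l → ℕ)) (hS : D ^ 2 < S.card) :
    ∃ m ∈ S, ∀ r : MvPolynomial (Fin (d + 1)) K, Irreducible r → 0 < r.degreeOf 0 → r ∣ P →
      ¬ r ∣ tw (y m) P := by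
  classical
  by_contra hcon
  push Not at hcon
  set Fac : Finset (MvPolynomial (Fin (d + 1)) K) :=
    (UniqueFactorizationMonoid.factors P).toFinset.filter (fun q => 0 < q.degreeOf 0) with hFac
  have hFne : ∀ q ∈ Fac, q ≠ 0 := by
    intro q hq h0
    rw [hFac, Finset.mem_filter, h0] at hq
    simp at hq
  have hcard : Fac.card ≤ D := by
    have h1 : (∏ q ∈ Fac, q) ∣ P := by
      refine (Finset.prod_dvd_prod_of_subset _ _ _ (Finset.filter_subset _ _)).trans ?_
      refine dvd_trans ?_ (UniqueFactorizationMonoid.factors_prod hP).dvd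
      exact Multiset.toFinset_prod_dvd_prod _
    have h2 := degreeOf_le_of_dvd hP h1 0
    rw [degreeOf_prod_eq _ _ hFne] at h2
    refine le_trans ?_ (h2.trans hD)
    calc Fac.card = ∑ q ∈ Fac, 1 := by simp
      _ ≤ ∑ q ∈ Fac, q.degreeOf 0 := Finset.sum_le_sum fun q hq =>
          (Finset.mem_filter.1 hq).2
  have hpair : ∀ m ∈ S, ∃ z : MvPolynomial (Fin (d + 1)) K × MvPolynomial (Fin (d + 1)) K,
      z ∈ Fac ×ˢ Fac ∧ Associated z.1 (tw (y m) z.2) := by
    intro m hm
    obtain ⟨r, hr, hr0, hrP, hrT⟩ := hcon m hm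
    obtain ⟨q, hq, hrq⟩ := UniqueFactorizationMonoid.exists_mem_factors_of_dvd hP hr hrP
    have hrT' : (twE (y m)).symm r ∣ P := by
      have h1 := map_dvd (twE (y m)).symm hrT
      have h2 : (twE (y m)).symm (tw (y m) P) = P := (twE (y m)).symm_apply_apply P
      rwa [h2] at h1
    have hirr : Irreducible ((twE (y m)).symm r) :=
      (MulEquiv.irreducible_iff (twE (y m)).symm).2 hr
    obtain ⟨q', hq', hrq'⟩ := UniqueFactorizationMonoid.exists_mem_factors_of_dvd hP hirr hrT'
    have hassoc : Associated r (tw (y m) q') := by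
      have h1 := hrq'.map (twE (y m))
      rwa [AlgEquiv.apply_symm_apply] at h1
    have hdeg : ∀ u w : MvPolynomial (Fin (d + 1)) K, u ≠ 0 → Associated u w →
        0 < u.degreeOf 0 → 0 < w.degreeOf 0 := by
      intro u w hu huw h
      have hw : w ≠ 0 := fun h0 => hu (huw.eq_zero_iff.2 h0)
      exact h.trans_le (degreeOf_le_of_dvd hw huw.dvd 0)
    refine ⟨(q, q'), ?_, hrq.symm.trans hassoc⟩
    rw [Finset.mem_product, hFac, Finset.mem_filter, Finset.mem_filter, Multiset.mem_toFinset,
      Multiset.mem_toFinset]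
    refine ⟨⟨hq, hdeg _ _ hr.ne_zero hrq hr0⟩, hq', ?_⟩
    have := hdeg _ _ hr.ne_zero hassoc hr0
    rwa [degreeOf_tw] at this
  choose! z hz hz' using hpair
  obtain ⟨m, hm, m', hm', hne, heq⟩ := Finset.exists_ne_map_eq_of_card_lt_of_maps_to
    (s := S) (t := Fac ×ˢ Fac) (by
      rw [Finset.card_product]
      calc Fac.card * Fac.card ≤ D * D := Nat.mul_le_mul hcard hcard
        _ = D ^ 2 := (sq D).symm
        _ < S.card := hS) (f := z) hz
  have h1 := hz' m hm
  have h2 := hz' m' hm'
  rw [← heq] at h2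
  obtain ⟨u, hu⟩ := h1.symm.trans h2
  obtain ⟨c, hc, hcu⟩ := (isUnit_iff_eq_C_of_isReduced (P := (u : MvPolynomial (Fin (d + 1)) K))).1
    u.isUnit
  have hmem := (Finset.mem_product.1 (hz m hm)).2
  have hq0 : 0 < (z m).2.degreeOf 0 := (Finset.mem_filter.1 hmem).2
  have hqP : (z m).2 ∣ P := UniqueFactorizationMonoid.dvd_of_mem_factors
    (Multiset.mem_toFinset.1 (Finset.mem_filter.1 hmem).1)
  obtain ⟨a, b, hab, ha, hb⟩ := exists_two_supp hq0 (fun h => hX (h.trans hqP))
  have hcoef : ∀ k : Fin (d + 1) →₀ ℕ, coeff k (z m).2 ≠ 0 →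
      (∏ i, ((y m i : Kˣ) : K) ^ k i) * c = ∏ i, ((y m' i : Kˣ) : K) ^ k i := by
    intro k hk
    have h3 := congrArg (coeff k) hu
    rw [hcu, mul_comm, coeff_C_mul, coeff_tw, coeff_tw,
      Finsupp.prod_fintype _ _ (fun i => pow_zero _),
      Finsupp.prod_fintype _ _ (fun i => pow_zero _)] at h3
    refine mul_right_cancel₀ hk ?_
    rw [← h3]
    ring
  refine hind m m' hne a b (fun h => hab (DFunLike.coe_injective h)) ?_
  apply Units.ext
  push_cast
  rw [← hcoef a ha, ← hcoef b hb]
  ring

end translate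

section resultant

variable {K : Type*} [Field K] {d : ℕ}

theorem degreeOf_resultant_le (f g : Polynomial (MvPolynomial (Fin d) K)) (D m n : ℕ) (i : Fin d)
    (hf : ∀ k, (f.coeff k).degreeOf i ≤ D) (hg : ∀ k, (g.coeff k).degreeOf i ≤ D) :
    (Polynomial.resultant f g m n).degreeOf i ≤ (m + n) * D := by
  classical
  rw [Polynomial.resultant, Matrix.det_apply]
  refine (degreeOf_sum_le _ _ _).trans (Finset.sup_le fun σ _ => ?_)
  have h1 : ∀ a b, (Polynomial.sylvester f g m n a b).degreeOf i ≤ D := by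
    intro a b
    rw [Polynomial.sylvester, Matrix.of_apply]
    refine Fin.addCases (fun j => ?_) (fun j => ?_) b
    · rw [Fin.addCases_left]
      split_ifs
      · exact hg _
      · simp
    · rw [Fin.addCases_right]
      split_ifs
      · exact hf _
      · simp
  have h2 : (∏ a, Polynomial.sylvester f g m n (σ a) a).degreeOf i ≤ (m + n) * D := by
    refine (degreeOf_prod_le _ _ _).trans ?_
    calc ∑ a, (Polynomial.sylvester f g m n (σ a) a).degreeOf i ≤ ∑ _a : Fin (m + n), D :=
          Finset.sum_le_sum fun a _ => h1 _ _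
      _ = (m + n) * D := by simp
  rcases Int.units_eq_one_or (Equiv.Perm.sign σ) with h | h
  · rw [h, one_smul]; exact h2
  · rw [h, Units.neg_smul, one_smul, degreeOf_neg]; exact h2

end resultant

/-- The zero estimate. -/
theorem zero_est {K : Type*} [Field K] {l : ℕ} (M : ℕ) : ∀ (d : ℕ)
    (y : (Fin l → ℕ) → Fin d → Kˣ), (∀ m m' : Fin l → ℕ, y (m + m') = y m * y m') →
    (∀ m m' : Fin l → ℕ, m ≠ m' → ∀ a b : Fin d → ℕ, a ≠ b →
      (∏ i, y m i ^ a i) * (∏ i, y m' i ^ b i) ≠ (∏ i, y m i ^ b i) * ∏ i, y m' i ^ a i) →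
    ∀ (D : ℕ) (P : MvPolynomial (Fin d) K), P ≠ 0 → (∀ i, P.degreeOf i ≤ D) →
    (∀ m : Fin l → ℕ, (∀ j, m j ≤ d * M) → eval (fun i => ((y m i : Kˣ) : K)) P = 0) →
    M ^ l ≤ (2 * D) ^ (2 ^ d) := by
  classical
  intro d
  induction d with
  | zero =>
    intro y _ _ D P hP _ hv
    exfalso
    have h1 := hv 0 (fun j => Nat.zero_le _)
    rw [eq_C_of_isEmpty P, eval_C] at h1
    apply hP
    rw [eq_C_of_isEmpty P, h1, C_0]
  | succ d ih =>
    intro y hy hind D P hP hD hv
    by_contra hlt
    push Not at hlt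
    -- remove the powers of the first variable
    obtain ⟨s, P₀, hX, hPs⟩ := WfDvdMonoid.max_power_factor' hP
      (x := (X 0 : MvPolynomial (Fin (d + 1)) K)) (by
        intro hu
        obtain ⟨c, _, hc⟩ := isUnit_iff_eq_C_of_isReduced.1 hu
        have h1 := congrArg (degreeOf 0) hc
        rw [degreeOf_X_self, degreeOf_C] at h1
        exact one_ne_zero h1)
    have hP₀ : P₀ ≠ 0 := by
      rintro rfl
      exact hX (dvd_zero _)
    have hD₀ : ∀ i, P₀.degreeOf i ≤ D := fun i =>
      (degreeOf_le_of_dvd hP (hPs ▸ dvd_mul_left _ _) i).trans (hD i)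
    have hv₀ : ∀ m : Fin l → ℕ, (∀ j, m j ≤ (d + 1) * M) →
        eval (fun i => ((y m i : Kˣ) : K)) P₀ = 0 := by
      intro m hm
      have h1 := hv m hm
      rw [hPs, map_mul, map_pow, eval_X] at h1
      exact (mul_eq_zero.1 h1).resolve_left (pow_ne_zero _ (y m 0).ne_zero)
    have heval : ∀ (m : Fin l → ℕ) (Q : MvPolynomial (Fin (d + 1)) K),
        eval (fun i => ((y m i : Kˣ) : K)) Q =
        Polynomial.eval ((y m 0 : Kˣ) : K) (Polynomial.map
          (eval fun i : Fin d => ((y m i.succ : Kˣ) : K)) (finSuccEquiv K d Q)) := by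
      intro m Q
      rw [← eval_eq_eval_mv_eval']
      congr 1
      congr 1
      funext i
      refine Fin.cases ?_ (fun j => ?_) i
      · rfl
      · rfl
    -- the group of the remaining variables
    have hy' : ∀ m m' : Fin l → ℕ, (fun i : Fin d => y (m + m') i.succ) =
        (fun i => y m i.succ) * fun i => y m' i.succ := by
      intro m m'
      funext i
      rw [hy]
      rfl
    have hind' : ∀ m m' : Fin l → ℕ, m ≠ m' → ∀ a b : Fin d → ℕ, a ≠ b →
        (∏ i, y m i.succ ^ a i) * (∏ i, y m' i.succ ^ b i) ≠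
          (∏ i, y m i.succ ^ b i) * ∏ i, y m' i.succ ^ a i := by
      intro m m' hm a b hab h
      refine hind m m' hm (Fin.cons 0 a) (Fin.cons 0 b) (fun h1 => hab ?_) ?_
      · funext i
        have h2 := congrFun h1 i.succ
        simpa using h2
      · simpa [Fin.prod_univ_succ] using h
    have hfin : (2 * (2 * D ^ 2)) ^ (2 ^ d) = (2 * D) ^ (2 ^ (d + 1)) := by
      rw [pow_succ 2 d, mul_comm (2 ^ d) 2, pow_mul]
      congr 1
      ring
    set f := finSuccEquiv K d P₀ with hf
    have hf0 : f ≠ 0 := by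
      rw [hf, Ne, EmbeddingLike.map_eq_zero_iff]
      exact hP₀
    have hfD : ∀ k (i : Fin d), (f.coeff k).degreeOf i ≤ D := fun k i =>
      (degreeOf_coeff_finSuccEquiv P₀ i k).trans (hD₀ _)
    rcases Nat.eq_zero_or_pos f.natDegree with hdeg | hdeg
    · -- the first variable does not occur
      have hfC := Polynomial.eq_C_of_natDegree_eq_zero hdeg
      have hc0 : f.coeff 0 ≠ 0 := by
        intro h0
        apply hf0
        rw [hfC, h0, Polynomial.C_0]
      refine absurd (ih (fun m i => y m i.succ) hy' hind' (2 * D ^ 2) (f.coeff 0) hc0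
        (fun i => (hfD 0 i).trans (by nlinarith [Nat.zero_le D])) (fun m hm => ?_))
        (by rw [hfin]; exact not_le.2 hlt)
      have h1 := hv₀ m (fun j => (hm j).trans (Nat.mul_le_mul_right _ (Nat.le_succ d)))
      rw [heval, ← hf, hfC, Polynomial.map_C, Polynomial.eval_C] at h1
      exact h1
    · -- a translate
      have hD1 : 1 ≤ D := by
        rw [hf, natDegree_finSuccEquiv] at hdeg
        exact hdeg.trans_le (hD₀ 0)
      set S : Finset (Fin l → ℕ) := Fintype.piFinset fun _ => Finset.range M with hS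
      have hScard : D ^ 2 < S.card := by
        rw [hS, Fintype.card_piFinset]
        simp only [Finset.card_range, Finset.prod_const, Finset.card_univ, Fintype.card_fin]
        refine lt_of_le_of_lt ?_ hlt
        calc D ^ 2 ≤ (2 * D) ^ 2 := Nat.pow_le_pow_left (by omega) 2
          _ ≤ (2 * D) ^ (2 ^ (d + 1)) := Nat.pow_le_pow_right (by omega) (by
              calc 2 = 2 ^ 1 := rfl
                _ ≤ 2 ^ (d + 1) := Nat.pow_le_pow_right (by norm_num) (by omega))
      obtain ⟨m₀, hm₀, hno⟩ := exists_translate y hind hP₀ hX (hD₀ 0) S hScard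
      have hm₀' : ∀ j, m₀ j ≤ M := by
        intro j
        rw [hS, Fintype.mem_piFinset] at hm₀
        exact (Finset.mem_range.1 (hm₀ j)).le
      set g := finSuccEquiv K d (tw (y m₀) P₀) with hg
      have hg0 : g ≠ 0 := by
        rw [hg, Ne, EmbeddingLike.map_eq_zero_iff]
        exact tw_ne_zero _ hP₀
      have hgD : ∀ k (i : Fin d), (g.coeff k).degreeOf i ≤ D := fun k i =>
        (degreeOf_coeff_finSuccEquiv _ i k).trans (by rw [degreeOf_tw]; exact hD₀ _)
      have hgdeg : g.natDegree = f.natDegree := by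
        rw [hg, hf, natDegree_finSuccEquiv, natDegree_finSuccEquiv, degreeOf_tw]
      have hfdeg : f.natDegree ≤ D := by
        rw [hf, natDegree_finSuccEquiv]
        exact hD₀ 0
      have hres : Polynomial.resultant f g ≠ 0 := by
        intro h0
        obtain ⟨r, hr, hrd, hrf, hrg⟩ := exists_common f g hf0 hg0 h0
        refine hno ((finSuccEquiv K d).symm r) ?_ ?_ ?_ ?_
        · exact (MulEquiv.irreducible_iff (finSuccEquiv K d).symm).2 hr
        · rw [← natDegree_finSuccEquiv, AlgEquiv.apply_symm_apply]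
          exact hrd
        · have h1 := map_dvd (finSuccEquiv K d).symm hrf
          rwa [hf, AlgEquiv.symm_apply_apply] at h1
        · have h1 := map_dvd (finSuccEquiv K d).symm hrg
          rwa [hg, AlgEquiv.symm_apply_apply] at h1
      refine absurd (ih (fun m i => y m i.succ) hy' hind' (2 * D ^ 2)
        (Polynomial.resultant f g) hres (fun i => ?_) (fun m hm => ?_))
        (by rw [hfin]; exact not_le.2 hlt)
      · refine (degreeOf_resultant_le f g D _ _ i (fun k => hfD k i) (fun k => hgD k i)).trans ?_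
        calc (f.natDegree + g.natDegree) * D ≤ (D + D) * D :=
              Nat.mul_le_mul_right _ (Nat.add_le_add hfdeg (hgdeg ▸ hfdeg))
          _ = 2 * D ^ 2 := by ring
      · obtain ⟨u, w, _, _, huw⟩ := Polynomial.exists_mul_add_mul_eq_C_resultant f g le_rfl le_rfl
          (Or.inl hdeg.ne')
        have h1 := congrArg (fun Q => Polynomial.eval ((y m 0 : Kˣ) : K) (Polynomial.map
          (eval fun i : Fin d => ((y m i.succ : Kˣ) : K)) Q)) huw
        simp only [Polynomial.map_add, Polynomial.map_mul, Polynomial.eval_add,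
          Polynomial.eval_mul, Polynomial.map_C, Polynomial.eval_C] at h1
        rw [← h1]
        have h2 := heval m P₀
        have h3 := heval m (tw (y m₀) P₀)
        rw [hv₀ m (fun j => (hm j).trans (Nat.mul_le_mul_right _ (Nat.le_succ d)))] at h2
        have h4 : eval (fun i => ((y m i : Kˣ) : K)) (tw (y m₀) P₀) = 0 := by
          rw [eval_tw]
          have h5 := hv₀ (m₀ + m) (fun j => by
            have := hm₀' j
            have := hm j
            rw [Pi.add_apply]
            calc m₀ j + m j ≤ M + d * M := by omega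
              _ = (d + 1) * M := by ring)
          rw [hy] at h5
          simpa using h5
        rw [h4] at h3
        rw [← hf] at h2
        rw [← hg] at h3
        rw [← h2, ← h3, zero_mul, zero_mul, add_zero]

end Vale.Agent.P024.W
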